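import Vale.Agent.P290.H95.K3Fam
import Vale.Agent.P281.H64.TK.Defs

/-!
# P281, project T-S, block S4: a family of the project T-K (`TK.Fam`) with a relative volume form is
a `K3Family` of P290, with total space `D × E`
-/

set_option linter.all false

open Set Filter Metric
open scoped Topology ContDiff

noncomputable section

namespace Vale.Agent.P281.H834.S

open Vale.Agent.P272.K Vale.Agent.P281.H64.TK Vale.Agent.P290.All Vale.Agent.P290.H805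
  Vale.Agent.P290.H95

/-- `ℂ × ℂ ≃ ℂ²` -/
def cm : C2 ≃L[ℂ] Cm 2 := (ContinuousLinearEquiv.finTwoArrow ℂ ℂ).symm

lemma cm_an (x : C2) : AnalyticAt ℂ cm x := (cm : C2 →L[ℂ] Cm 2).analyticAt x

lemma cms_an (x : Cm 2) : AnalyticAt ℂ cm.symm x := (cm.symm : Cm 2 →L[ℂ] C2).analyticAt x

variable {p d : ℕ} {E Γ : Type} [TopologicalSpace E] [Group Γ] [MulAction Γ E]

/-- `s` is a nowhere zero holomorphic `d`-form on the member number `t`, on the covering `E`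
(`s i δ` is the coefficient in the chart `z ↦ δ • σ i t z`). -/
def IsVol (𝓕 : Fam p d E Γ) (t : Cm p) (s : Fin 𝓕.N → Γ → Cm d → ℂ) : Prop :=
  (∀ i δ, DifferentiableOn ℂ (s i δ) (ball 0 3)) ∧ (∀ i δ, ∀ z ∈ ball (0 : Cm d) 3, s i δ z ≠ 0) ∧
    ∀ i j, ∀ z ∈ ball (0 : Cm d) 3, ∀ w ∈ ball (0 : Cm d) 3, ∀ (γ : Γ) (θ : Cm d → Cm d),
      AnalyticAt ℂ θ z → θ z = w → (∀ᶠ u in 𝓝 z, 𝓕.σ i t u = γ • 𝓕.σ j t (θ u)) →
      ∀ δ, s i δ z = s j (δ * γ) w * (jac θ z).det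

/-- a holomorphic family of nowhere zero `d`-forms over `D` -/
structure VolData (𝓕 : Fam p d E Γ) (D : Set (Cm p)) (s : Fin 𝓕.N → Γ → Cm p × Cm d → ℂ) :
    Prop where
  isOpen : IsOpen D
  sub : D ⊆ 𝓕.T
  vol : ∀ t ∈ D, IsVol 𝓕 t (fun i δ z => s i δ (t, z))
  an : ∀ i δ, ∀ t ∈ D, ∀ z ∈ ball (0 : Cm d) 3, AnalyticAt ℂ (s i δ) (t, z)

section chart

variable {𝓕 : Fam p 2 E Γ} {D : Set (Cm p)}

/-- the chart `(t, w) ↦ (t, γ • σ i t w)` -/
def gm (𝓕 : Fam p 2 E Γ) (D : Set (Cm p)) (γ : Γ) (i : Fin 𝓕.N) (q : D × C2) : D × E :=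
  (q.1, γ • 𝓕.σ i q.1 (cm q.2))

/-- its domain -/
def U3 (D : Set (Cm p)) : Set (D × C2) := {q | cm q.2 ∈ ball (0 : Cm 2) 3}

lemma isOpen_U3 : IsOpen (U3 D) :=
  isOpen_ball.preimage (cm.continuous.comp continuous_snd)

lemma inj_gm (hsub : D ⊆ 𝓕.T) (γ : Γ) (i : Fin 𝓕.N) : InjOn (gm 𝓕 D γ i) (U3 D) := by
  rintro ⟨t, w⟩ hw ⟨t', w'⟩ hw' h
  have h1 : t = t' := congrArg Prod.fst h
  subst h1
  have h2 : γ • 𝓕.σ i t (cm w) = γ • 𝓕.σ i t (cm w') := congrArg Prod.snd h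
  have h3 : (1 : Γ) • 𝓕.σ i t (cm w) = 𝓕.σ i t (cm w') := by
    rw [one_smul]
    exact smul_left_cancel γ h2
  have h4 := (𝓕.inj i t (hsub t.2) (cm w) hw (cm w') hw' 1 h3).2
  rw [cm.injective h4]

variable [ContinuousConstSMul Γ E]

lemma map_gm (hD : IsOpen D) (hsub : D ⊆ 𝓕.T) (γ : Γ) (i : Fin 𝓕.N) {q : D × C2}
    (hq : q ∈ U3 D) : map (gm 𝓕 D γ i) (𝓝 q) = 𝓝 (gm 𝓕 D γ i q) := by
  obtain ⟨t, w⟩ := q
  -- the two open embeddings
  have ha : Topology.IsOpenEmbedding (fun q : D × C2 => ((q.1 : Cm p), cm q.2)) :=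
    (hD.isOpenEmbedding_subtypeVal).prodMap cm.toHomeomorph.isOpenEmbedding
  have hb : Topology.IsOpenEmbedding (fun q : D × E => ((q.1 : Cm p), q.2)) :=
    (hD.isOpenEmbedding_subtypeVal).prodMap Topology.IsOpenEmbedding.id
  have hγ : Topology.IsOpenEmbedding (fun q : Cm p × E => (q.1, γ • q.2)) :=
    Topology.IsOpenEmbedding.id.prodMap (Homeomorph.smul γ).isOpenEmbedding
  apply Filter.map_injective hb.injective
  rw [hb.map_nhds_eq, Filter.map_map]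
  have e : (fun q : D × E => ((q.1 : Cm p), q.2)) ∘ gm 𝓕 D γ i =
      (fun q : Cm p × E => (q.1, γ • q.2)) ∘
        (fun q : Cm p × Cm 2 => (q.1, 𝓕.σ i q.1 q.2)) ∘
          fun q : D × C2 => ((q.1 : Cm p), cm q.2) := rfl
  rw [e, ← Filter.map_map, ← Filter.map_map, ha.map_nhds_eq,
    𝓕.map_nhds i t (hsub t.2) (cm w) hq, hγ.map_nhds_eq]
  rfl

lemma isOpenMap_gm (hD : IsOpen D) (hsub : D ⊆ 𝓕.T) (γ : Γ) (i : Fin 𝓕.N) :
    IsOpenMap ((U3 D).restrict (gm 𝓕 D γ i)) := by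
  refine IsOpenMap.of_nhds_le fun q => ?_
  have h := map_gm hD hsub γ i q.2
  have h2 : map ((U3 D).restrict (gm 𝓕 D γ i)) (𝓝 q) = map (gm 𝓕 D γ i) (𝓝 (q : D × C2)) := by
    have h3 : (U3 D).restrict (gm 𝓕 D γ i) = gm 𝓕 D γ i ∘ Subtype.val := rfl
    rw [h3, ← Filter.map_map]
    congr 1
    exact isOpen_U3.isOpenEmbedding_subtypeVal.map_nhds_eq q
  exact (h2.trans h).ge

/-- the chart as an open partial homeomorphism -/
def oph (hD : IsOpen D) (hsub : D ⊆ 𝓕.T) (γ : Γ) (i : Fin 𝓕.N) (t₀ : D) :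
    OpenPartialHomeomorph (D × C2) (D × E) :=
  haveI : Nonempty (D × C2) := ⟨(t₀, 0)⟩
  OpenPartialHomeomorph.ofContinuousOpenRestrict
    ((inj_gm hsub γ i).bijOn_image.toPartialEquiv (gm 𝓕 D γ i) (U3 D) (gm 𝓕 D γ i '' U3 D))
    (fun q hq => by
      have h : ContinuousAt (gm 𝓕 D γ i) q := (map_gm hD hsub γ i hq).le
      exact h.continuousWithinAt)
    (isOpenMap_gm hD hsub γ i)
    isOpen_U3

lemma oph_apply (hD : IsOpen D) (hsub : D ⊆ 𝓕.T) (γ : Γ) (i : Fin 𝓕.N) (t₀ : D) (q : D × C2) :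
    oph hD hsub γ i t₀ q = gm 𝓕 D γ i q := rfl

lemma oph_source (hD : IsOpen D) (hsub : D ⊆ 𝓕.T) (γ : Γ) (i : Fin 𝓕.N) (t₀ : D) :
    (oph hD hsub γ i t₀).source = U3 D := rfl

lemma oph_target (hD : IsOpen D) (hsub : D ⊆ 𝓕.T) (γ : Γ) (i : Fin 𝓕.N) (t₀ : D) :
    (oph hD hsub γ i t₀).target = gm 𝓕 D γ i '' U3 D := rfl

lemma exists_ix (hsub : D ⊆ 𝓕.T) (x : D × E) : ∃ (c : Γ × Fin 𝓕.N) (w : C2), cm w ∈ ball (0 : Cm 2) 3 ∧
    gm 𝓕 D c.1 c.2 (x.1, w) = x := by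
  obtain ⟨γ, i, z, hz, h⟩ := 𝓕.cover x.1 (hsub x.1.2) x.2
  refine ⟨(γ, i), cm.symm z, ?_, ?_⟩
  · rw [ContinuousLinearEquiv.apply_symm_apply, mem_ball_zero_iff]
    linarith
  · rw [gm, ContinuousLinearEquiv.apply_symm_apply, h]

/-- a choice of a chart at `x` -/
def ix (hsub : D ⊆ 𝓕.T) (x : D × E) : Γ × Fin 𝓕.N := (exists_ix hsub x).choose

/-- the local trivialisation at `x` -/
def tv (hD : IsOpen D) (hsub : D ⊆ 𝓕.T) (x : D × E) : OpenPartialHomeomorph (D × E) (D × C2) :=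
  (oph hD hsub (ix hsub x).1 (ix hsub x).2 x.1).symm

lemma mem_tv (hD : IsOpen D) (hsub : D ⊆ 𝓕.T) (x : D × E) : x ∈ (tv hD hsub x).source := by
  obtain ⟨w, hw, h⟩ := (exists_ix hsub x).choose_spec
  exact ⟨(x.1, w), hw, h⟩

/-- the transition maps -/
lemma trans_tv (hD : IsOpen D) (hsub : D ⊆ 𝓕.T) (x x' : D × E) (t : D) (w : C2)
    (hw : cm w ∈ ball (0 : Cm 2) 3)
    (h : gm 𝓕 D (ix hsub x).1 (ix hsub x).2 (t, w) ∈ (tv hD hsub x').source) :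
    ∃ θ : Cm p × Cm 2 → Cm 2, AnalyticAt ℂ θ (t, cm w) ∧ θ (t, cm w) ∈ ball (0 : Cm 2) 3 ∧
      (∀ᶠ q in 𝓝 ((t : Cm p), cm w), 𝓕.σ (ix hsub x).2 q.1 q.2 =
        ((ix hsub x).1⁻¹ * (ix hsub x').1) • 𝓕.σ (ix hsub x').2 q.1 (θ q)) ∧
      ∀ᶠ q in 𝓝 ((t : Cm p), w), ∀ hq : q.1 ∈ D, cm q.2 ∈ ball (0 : Cm 2) 3 ∧
        (tv hD hsub x') (gm 𝓕 D (ix hsub x).1 (ix hsub x).2 (⟨q.1, hq⟩, q.2)) =
          (⟨q.1, hq⟩, cm.symm (θ (q.1, cm q.2))) := by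
  obtain ⟨⟨t', w'⟩, hw', he⟩ := h
  set c := ix hsub x with hc
  set c' := ix hsub x' with hc'
  have ht : t' = t := congrArg Prod.fst he
  subst ht
  have he2 : c'.1 • 𝓕.σ c'.2 t' (cm w') = c.1 • 𝓕.σ c.2 t' (cm w) := congrArg Prod.snd he
  have he3 : 𝓕.σ c.2 t' (cm w) = (c.1⁻¹ * c'.1) • 𝓕.σ c'.2 t' (cm w') := by
    rw [mul_smul, he2, inv_smul_smul]
  obtain ⟨θ, h1, h2, h3⟩ := 𝓕.hol c.2 c'.2 t' (hsub t'.2) (cm w) hw (cm w') hw' _ he3
  have h4 : θ (t', cm w) ∈ ball (0 : Cm 2) 3 := by rw [h2]; exact hw'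
  refine ⟨θ, h1, h4, h3, ?_⟩
  have hcont : Tendsto (fun q : Cm p × C2 => (q.1, cm q.2)) (𝓝 ((t' : Cm p), w))
      (𝓝 ((t' : Cm p), cm w)) :=
    (continuous_fst.prodMk (cm.continuous.comp continuous_snd)).tendsto' _ _ rfl
  have h5 := hcont.eventually h3
  have h6 := hcont.eventually (h1.continuousAt.eventually (isOpen_ball.mem_nhds h4))
  have h7 : ∀ᶠ q : Cm p × C2 in 𝓝 ((t' : Cm p), w), cm q.2 ∈ ball (0 : Cm 2) 3 := by
    have := hcont.eventually (continuous_snd.continuousAt.eventually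
      (isOpen_ball.mem_nhds (x := ((t' : Cm p), cm w).2) hw))
    exact this
  filter_upwards [h5, h6, h7] with q q5 q6 q7 hq
  refine ⟨q7, ?_⟩
  have h8 : gm 𝓕 D c.1 c.2 (⟨q.1, hq⟩, q.2) =
      oph hD hsub c'.1 c'.2 x'.1 (⟨q.1, hq⟩, cm.symm (θ (q.1, cm q.2))) := by
    rw [oph_apply, gm, gm]
    simp only [ContinuousLinearEquiv.apply_symm_apply]
    rw [q5, mul_smul, smul_inv_smul]
  rw [h8]
  refine (oph hD hsub c'.1 c'.2 x'.1).left_inv ?_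
  show cm (cm.symm (θ (q.1, cm q.2))) ∈ ball (0 : Cm 2) 3
  rw [ContinuousLinearEquiv.apply_symm_apply]
  exact q6

lemma tv_symm (hD : IsOpen D) (hsub : D ⊆ 𝓕.T) (x : D × E) (q : D × C2) :
    (tv hD hsub x).symm q = gm 𝓕 D (ix hsub x).1 (ix hsub x).2 q := rfl

lemma tv_target (hD : IsOpen D) (hsub : D ⊆ 𝓕.T) (x : D × E) : (tv hD hsub x).target = U3 D := rfl

/-- The family, as a family of surfaces with total space `D × E`. -/
def fam (hD : IsOpen D) (hsub : D ⊆ 𝓕.T) : Family D (D × E) where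
  p := Prod.fst
  triv := tv hD hsub
  mem := mem_tv hD hsub
  fst := by
    intro x y hy
    have h := (tv hD hsub x).left_inv hy
    rw [tv_symm] at h
    exact congrArg Prod.fst h
  hol := by
    intro x x' t v hv hv'
    obtain ⟨θ, h1, h2, h3, h4⟩ := trans_tv hD hsub x x' t v hv hv'
    have h5 : AnalyticAt ℂ (fun w : C2 => cm.symm (θ ((t : Cm p), cm w))) v := by
      have h6 : AnalyticAt ℂ (fun w : C2 => ((t : Cm p), cm w)) v :=
        analyticAt_const.prod (cm_an _)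
      have h7 : AnalyticAt ℂ (fun w : C2 => θ ((t : Cm p), cm w)) v :=
        AnalyticAt.fun_comp (f := fun w : C2 => ((t : Cm p), cm w)) h1 h6
      exact AnalyticAt.fun_comp (g := fun z => cm.symm z)
        (f := fun w : C2 => θ ((t : Cm p), cm w)) (cms_an _) h7
    refine h5.contDiffAt.congr_of_eventuallyEq ?_
    have h8 : Tendsto (fun w : C2 => ((t : Cm p), w)) (𝓝 v) (𝓝 ((t : Cm p), v)) :=
      (continuous_const.prodMk continuous_id).tendsto' _ _ rfl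
    filter_upwards [h8.eventually h4] with w hw
    have h9 := (hw t.2).2
    rw [tv_symm]
    exact congrArg Prod.snd h9

lemma trn_eq (hD : IsOpen D) (hsub : D ⊆ 𝓕.T) (x x' : D × E) (t : D) (w : C2)
    (hw : cm w ∈ ball (0 : Cm 2) 3)
    (h : gm 𝓕 D (ix hsub x).1 (ix hsub x).2 (t, w) ∈ (tv hD hsub x').source) :
    ∃ θ : Cm p × Cm 2 → Cm 2, AnalyticAt ℂ θ (t, cm w) ∧ θ (t, cm w) ∈ ball (0 : Cm 2) 3 ∧
      (∀ᶠ q in 𝓝 ((t : Cm p), cm w), 𝓕.σ (ix hsub x).2 q.1 q.2 =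
        ((ix hsub x).1⁻¹ * (ix hsub x').1) • 𝓕.σ (ix hsub x').2 q.1 (θ q)) ∧
      trn (fam hD hsub) x x' =ᶠ[𝓝 ((t : Cm p), w)] fun q => cm.symm (θ (q.1, cm q.2)) := by
  obtain ⟨θ, h1, h2, h3, h4⟩ := trans_tv hD hsub x x' t w hw h
  refine ⟨θ, h1, h2, h3, ?_⟩
  have h5 : ∀ᶠ q : Cm p × C2 in 𝓝 ((t : Cm p), w), q.1 ∈ D :=
    continuous_fst.continuousAt.eventually (hD.mem_nhds t.2)
  filter_upwards [h4, h5] with q hq hqD
  have h6 := trn_apply (fam hD hsub) x x' ⟨q.1, hqD⟩ q.2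
  rw [show (((⟨q.1, hqD⟩ : D) : Cm p), q.2) = q from rfl] at h6
  rw [h6]
  exact congrArg Prod.snd (hq hqD).2

/-- the fibres -/
def fibHomeo (hD : IsOpen D) (hsub : D ⊆ 𝓕.T) (t : D) : E ≃ₜ Fib (fam hD hsub) t where
  toFun e := ⟨(t, e), rfl⟩
  invFun x := x.val.2
  left_inv e := rfl
  right_inv x := by
    apply Fib.ext
    exact Prod.ext x.prop.symm rfl
  continuous_toFun := isInducing_val.continuous_iff.2 (Continuous.prodMk_right t)
  continuous_invFun := continuous_snd.comp continuous_val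

lemma det_cm {θ : Cm 2 → Cm 2} {w : C2} (h : DifferentiableAt ℂ θ (cm w)) :
    (fderiv ℂ (fun u : C2 => cm.symm (θ (cm u))) w).det = (jac θ (cm w)).det := by
  have h1 : HasFDerivAt (fun u : C2 => cm.symm (θ (cm u)))
      ((cm.symm : Cm 2 →L[ℂ] C2).comp ((fderiv ℂ θ (cm w)).comp (cm : C2 →L[ℂ] Cm 2))) w :=
    (cm.symm : Cm 2 →L[ℂ] C2).hasFDerivAt.comp w (h.hasFDerivAt.comp w cm.hasFDerivAt)
  rw [h1.fderiv]
  have h2 : ((cm.symm : Cm 2 →L[ℂ] C2).comp ((fderiv ℂ θ (cm w)).comp (cm : C2 →L[ℂ] Cm 2))).det =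
      LinearMap.det ((cm.symm.toLinearEquiv : Cm 2 →ₗ[ℂ] C2) ∘ₗ
        (fderiv ℂ θ (cm w) : Cm 2 →ₗ[ℂ] Cm 2) ∘ₗ (cm.symm.toLinearEquiv.symm : C2 →ₗ[ℂ] Cm 2)) := rfl
  rw [h2, LinearMap.det_conj, ← LinearMap.det_toMatrix']
  congr 1

end chart

section vol

variable {𝓕 : Fam p 2 E Γ} {D : Set (Cm p)} [ContinuousConstSMul Γ E] [T2Space E]
  [CompactSpace E] [SimplyConnectedSpace E] {s : Fin 𝓕.N → Γ → Cm p × Cm 2 → ℂ}

/-- **The family of K3 surfaces.** -/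
def k3fam (h : VolData 𝓕 D s) : K3Family (Cm p) D (D × E) where
  F := fam h.isOpen h.sub
  hol := by
    intro x x' t w hw hw'
    obtain ⟨θ, h1, h2, h3, h4⟩ := trn_eq h.isOpen h.sub x x' t w hw hw'
    have h6 : AnalyticAt ℂ (fun q : Cm p × C2 => (q.1, cm q.2)) ((t : Cm p), w) :=
      analyticAt_fst.prod (AnalyticAt.fun_comp (g := fun z => cm z) (f := fun q : Cm p × C2 => q.2)
        (cm_an _) analyticAt_snd)
    have h7 : AnalyticAt ℂ (fun q : Cm p × C2 => θ (q.1, cm q.2)) ((t : Cm p), w) :=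
      AnalyticAt.fun_comp (f := fun q : Cm p × C2 => (q.1, cm q.2)) h1 h6
    exact (AnalyticAt.fun_comp (g := fun z => cm.symm z)
      (f := fun q : Cm p × C2 => θ (q.1, cm q.2)) (cms_an _)
      h7).congr h4.symm
  compact t := (fibHomeo h.isOpen h.sub t).compactSpace
  sc t := (fibHomeo h.isOpen h.sub t).symm.toHomotopyEquiv.simplyConnectedSpace
  vol x q := s (ix h.sub x).2 (ix h.sub x).1 (q.1, cm q.2)
  vol_hol := by
    intro x t w hw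
    refine ⟨?_, (h.vol t t.2).2.1 _ _ _ hw⟩
    have h6 : AnalyticAt ℂ (fun q : Cm p × C2 => (q.1, cm q.2)) ((t : Cm p), w) :=
      analyticAt_fst.prod (AnalyticAt.fun_comp (g := fun z => cm z) (f := fun q : Cm p × C2 => q.2)
        (cm_an _) analyticAt_snd)
    exact AnalyticAt.fun_comp (f := fun q : Cm p × C2 => (q.1, cm q.2))
      (h.an (ix h.sub x).2 (ix h.sub x).1 t t.2 (cm w) hw) h6
  vol_law := by
    intro x x' t w hw hw'
    obtain ⟨θ, h1, h2, h3, h4⟩ := trn_eq h.isOpen h.sub x x' t w hw hw'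
    have hin : Tendsto (fun z : Cm 2 => ((t : Cm p), z)) (𝓝 (cm w)) (𝓝 ((t : Cm p), cm w)) :=
      (continuous_const.prodMk continuous_id).tendsto' _ _ rfl
    have h5 : AnalyticAt ℂ (fun z : Cm 2 => θ ((t : Cm p), z)) (cm w) :=
      AnalyticAt.fun_comp (f := fun z : Cm 2 => ((t : Cm p), z)) h1
        (analyticAt_const.prod analyticAt_id)
    have h6 := (h.vol t t.2).2.2 (ix h.sub x).2 (ix h.sub x').2 (cm w) hw (θ (t, cm w)) h2
      ((ix h.sub x).1⁻¹ * (ix h.sub x').1) (fun z => θ ((t : Cm p), z)) h5 rfl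
      (hin.eventually h3) (ix h.sub x).1
    rw [mul_inv_cancel_left] at h6
    have hin2 : Tendsto (fun u : C2 => ((t : Cm p), u)) (𝓝 w) (𝓝 ((t : Cm p), w)) :=
      (continuous_const.prodMk continuous_id).tendsto' _ _ rfl
    have h7 : (fun u : C2 => trn (fam h.isOpen h.sub) x x' ((t : Cm p), u)) =ᶠ[𝓝 w]
        fun u => cm.symm (θ ((t : Cm p), cm u)) := hin2.eventually h4
    have h8 : trn (fam h.isOpen h.sub) x x' ((t : Cm p), w) = cm.symm (θ ((t : Cm p), cm w)) :=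
      h4.self_of_nhds
    rw [h7.fderiv_eq, det_cm (θ := fun z => θ ((t : Cm p), z)) h5.differentiableAt, h8]
    simp only [ContinuousLinearEquiv.apply_symm_apply]
    exact h6

end vol

end Vale.Agent.P281.H834.S
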